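import Claimed.Agent.R257.Infra.Pkt.Approx
import Claimed.Agent.R257.Infra.Lay.Bessel
import Claimed.Agent.R257.Infra.Lay.Ext
import Claimed.Agent.R257.Infra.Lay.PktDecay
import Claimed.Agent.R257.Frac.Pkt

/-!
# R257 / Infra / Pkt / Main : EXIT `ifp_pkt : PktStmt n` (H fractal.tex, Lemma d:packet-expansion; contract of helper188 in `Frac/Pkt.lean`).      (helper245)   GLUE: no `sorry` of its own.

Index type `J = {α // ‖ω_j‖ ≤ Rw}`, `Rw = max R₀ 0 + √n`;   class `(A, Rw, √n, C₂, C₃, 3ⁿ)`, `Ce = 1`.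
-/

set_option autoImplicit false

namespace Claimed.Agent.R257

open MeasureTheory Metric Set
open scoped ENNReal ContDiff InnerProductSpace Real ComplexConjugate

variable {n : ℕ}

/-- decay of the exact field of an exact input about its label line, all times -/
theorem ifl_ext_decay {A : ℕ} {Cd L r b : ℝ} (hL : 0 < L)
    (Hd : ∀ (a : E n → ℂ) (b : ℝ) (k : E n) (X : ST n), IflAmp A r b a →
      ‖iflH a k X‖ ≤ Cd * b * (1 + ‖k‖) ^ A * (1 + |X.2|) ^ A * (1 + ‖X.1‖) ^ (-(A : ℤ)))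
    (w y k : E n) {a : E n → ℂ} (ha : IflAmp A r b a) (z : ST n) :
    ‖ext (iflG L w y k a) z‖ ≤
      Cd * b * (1 + ‖k‖) ^ A * L ^ (-(n : ℝ) / 2) * (1 + |z.2| / L ^ 2) ^ A * ((1 + ‖z.1 - y - (2 * z.2) • w‖ / L)⁻¹) ^ A := by
  rw [ifl_ext hL]
  have hcar : ‖car w z‖ = 1 := by
    unfold car
    rw [mul_comm, Complex.norm_exp_ofReal_mul_I]
  rw [norm_mul, norm_mul, hcar, mul_one, Complex.norm_real, Real.norm_of_nonneg (by positivity)]
  have h1 := Hd a _ k (chart L w y 0 z) ha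
  have e1 : |(chart L w y 0 z).2| = |z.2| / L ^ 2 := by
    unfold chart
    simp only [sub_zero]
    rw [abs_div, abs_of_pos (by positivity : (0:ℝ) < L ^ 2)]
  have e2 : ‖(chart L w y 0 z).1‖ = ‖z.1 - y - (2 * z.2) • w‖ / L := by
    unfold chart
    simp only
    rw [norm_smul, norm_inv, Real.norm_of_nonneg hL.le, div_eq_inv_mul]
  have e3 : (1 + ‖z.1 - y - (2 * z.2) • w‖ / L) ^ (-(A : ℤ)) = ((1 + ‖z.1 - y - (2 * z.2) • w‖ / L)⁻¹) ^ A := by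
    rw [zpow_neg, zpow_natCast, inv_pow]
  rw [e1, e2, e3] at h1
  have hLn : 0 ≤ L ^ (-(n : ℝ) / 2) := by positivity
  calc L ^ (-(n : ℝ) / 2) * ‖iflH a k (chart L w y 0 z)‖
      ≤ L ^ (-(n : ℝ) / 2) * (Cd * b * (1 + ‖k‖) ^ A * (1 + |z.2| / L ^ 2) ^ A * ((1 + ‖z.1 - y - (2 * z.2) • w‖ / L)⁻¹) ^ A) :=
        mul_le_mul_of_nonneg_left h1 hLn
    _ = _ := by ring

/-- the multiplicity of the labels, on a subtype -/
theorem ifp_mult_sub {L : ℝ} (hL : 0 < L) (p : (Fin n → ℤ) × (Fin n → ℤ) → Prop) (s : Finset {α // p α}) :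
    IflMult s (fun α => ((L • ifpOm L α.1.1, L⁻¹ • ifpY L α.1.2) : E n × E n)) (3 ^ n) := by
  intro q t _ ht
  have h := ifp_mult hL (t.map ⟨Subtype.val, Subtype.val_injective⟩) q (t.map ⟨Subtype.val, Subtype.val_injective⟩) subset_rfl
    (fun α hα => by
      obtain ⟨β, hβ, rfl⟩ := Finset.mem_map.1 hα
      exact ht β hβ)
  rwa [Finset.card_map] at h

/-- **the exact packets of scale `L` with frequencies in the ball `Rw` form an exact array** -/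
theorem ifp_xarr (n A : ℕ) (Rw : ℝ) : ∃ C₂ C₃ : ℝ, ∀ (L : ℝ), 1 ≤ L → ∀ s : Finset {α : (Fin n → ℤ) × (Fin n → ℤ) // ‖ifpOm L α.1‖ ≤ Rw},
    (XArr.mk L (fun α : {α : (Fin n → ℤ) × (Fin n → ℤ) // ‖ifpOm L α.1‖ ≤ Rw} => ifpOm L α.1.1) (fun α => ifpY L α.1.2) 0 (fun α => ifpV L α.1)).In s
      ⟨A, Rw, Real.sqrt n, C₂, C₃, 3 ^ n⟩ := by
  obtain ⟨Cb, hCb, Hb⟩ := ifl_bessel n (Real.sqrt n) (Real.sqrt_nonneg _)
  obtain ⟨Cd, hCd, Hd⟩ := ifl_pkt_decay n A (Real.sqrt n) (Real.sqrt_nonneg _)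
  obtain ⟨b, hb0, hb⟩ := ifp_amp n (max A (2 * n + 1))
  refine ⟨Cb * (3 ^ n : ℕ) * b ^ 2, Cd * b, fun L hL s => ?_⟩
  have hL0 : 0 < L := by linarith
  have hm := ifp_mult_sub hL0 (fun α => ‖ifpOm L α.1‖ ≤ Rw) s
  refine ⟨⟨hL, fun α _ => α.2, fun α _ z => ?_, hm⟩, fun α _ => (ifp_V_reg hL0 α.1).1.measurable, fun α _ => (ifp_V_reg hL0 α.1).2.2.1,
    fun α _ ξ hξ => ?_, fun t hts c => ?_⟩
  · have h := ifl_ext_decay hL0 Hd (ifpOm L α.1.1) (ifpY L α.1.2) 0 (hb.mono (le_max_left _ _) le_rfl le_rfl) z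
    rw [norm_zero, add_zero, one_pow, mul_one] at h
    exact h
  · have h := (ifp_V_reg hL0 α.1).2.2.2 ξ hξ
    simpa using h
  · exact Hb _ s L b (fun α => ifpOm L α.1.1) (fun α => ifpY L α.1.2) 0 (fun _ => ifpAmp) (3 ^ n) hL0
      (fun α _ => hb.mono (le_max_right _ _) le_rfl le_rfl) hm t hts c

/-- **EXIT: Lemma d:packet-expansion** -/
theorem ifp_pkt (n : ℕ) : PktStmt n := by
  intro R₀ A
  obtain ⟨C₂, C₃, H⟩ := ifp_xarr n A (max R₀ 0 + Real.sqrt n)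
  have hs := Real.sqrt_nonneg (n : ℝ)
  refine ⟨max R₀ 0 + Real.sqrt n, Real.sqrt n, C₂, C₃, 1, 3 ^ n, by linarith [le_max_right R₀ 0], hs, zero_le_one, fun l g hl hg => ?_⟩
  have hl0 : 0 < l := by linarith
  refine ⟨{α : (Fin n → ℤ) × (Fin n → ℤ) // ‖ifpOm l α.1‖ ≤ max R₀ 0 + Real.sqrt n}, _, fun α => ifpC l g α.1, rfl, rfl, H l hl,
    fun s => ?_, fun z => ?_, fun α hα => ifp_coef_ne hl0 α.1 hα⟩
  · rw [one_mul]
    unfold energy
    have h := sum_le_hasSum (s.map ⟨Subtype.val, Subtype.val_injective⟩) (fun α _ => by positivity) (ifp_parseval hl0 hg.l2)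
    rwa [Finset.sum_map] at h
  · have h := ifp_hasSum hl0 hg z
    refine (hasSum_subtype_iff_of_support_subset (s := {α : (Fin n → ℤ) × (Fin n → ℤ) | ‖ifpOm l α.1‖ ≤ max R₀ 0 + Real.sqrt n}) ?_).2 h
    intro α hα
    by_contra hcon
    apply hα
    have h1 : R₀ + Real.sqrt n / l < ‖ifpOm l α.1‖ := by
      have h2 : max R₀ 0 + Real.sqrt n < ‖ifpOm l α.1‖ := not_le.1 hcon
      have h3 : Real.sqrt n / l ≤ Real.sqrt n := div_le_self hs hl
      linarith [le_max_left R₀ 0]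
    simp only
    rw [ifp_coef_zero hl0 hg α h1, zero_mul]

end Claimed.Agent.R257
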