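import Claimed.Agent.R257.Infra.Pkt.Defs
import Claimed.Agent.R257.Infra.Lay.Gram
import Claimed.Agent.R255.Pk.CbCpt

/-!
# R257 / Infra / Pkt / Amp : LEAVES L-IFP-AMP (~150 l.), L-IFP-MULT (~150 l.).      (architect helper245)

L-IFP-AMP.  `ifpAmp = c χ`, `χ = ∏ pkWin1 ∘ proj_i` smooth (`contDiff_prod`, `R255.pk_win1_smooth`), `χ θ ≠ 0 ⟹ |θ_i| < 1 ∀ i ⟹ ‖θ‖ ≤ √n` (`EuclideanSpace.norm_eq`, `Real.sqrt_le_sqrt`, `Finset.sum_le_card_nsmul`).
 Bounds: a smooth function with compact support has bounded derivatives of every order (`ContDiff.continuous_iteratedFDeriv` + `HasCompactSupport.iteratedFDeriv` + `Continuous.bounded_above_of_compact_support`); take the max over `j ≤ N` (`Finset.sup'`/sum of the bounds).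
L-IFP-MULT.  `L • ifpOm L j = iflLat j`, `L⁻¹ • ifpY L m = π • iflLat m`.   If `(j, πm) ∈ closedBall q 1` (sup of the two Euclidean norms) then `|j_i - q.1 i| ≤ 1`, `|π m_i - q.2 i| ≤ 1` (`PiLp.norm_apply_le`/`EuclideanSpace.norm_eq`):
 `j_i ∈ Finset.Icc ⌈q.1 i - 1⌉ ⌊q.1 i + 1⌋` (`≤ 3` integers) and `m_i` is determined (two integers at distance `≥ 1` give `π ≤ 2`: `Real.pi_gt_three`).   Injection of `t` into `Fintype.piFinset` of these intervals by `α ↦ α.1`; `Fintype.card_piFinset`, `Int.card_Icc`.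
-/

set_option autoImplicit false

namespace Claimed.Agent.R257

open MeasureTheory Metric Set
open scoped ENNReal ContDiff InnerProductSpace Real ComplexConjugate

variable {n : ℕ}

theorem ifp_amp_chi_smooth : ContDiff ℝ ∞ (ifpChi : E n → ℝ) := by
  unfold ifpChi
  apply contDiff_prod
  intro i _
  exact R255.pk_win1_smooth.comp (EuclideanSpace.proj i : E n →L[ℝ] ℝ).contDiff

theorem ifp_amp_chi_supp (θ : E n) (h : ifpChi θ ≠ 0) : ‖θ‖ ≤ Real.sqrt n := by
  have h0 : ∀ i, |θ i| < 1 := by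
    intro i
    unfold ifpChi at h
    rw [Finset.prod_ne_zero_iff] at h
    exact R255.pk_win1_supp _ (h i (Finset.mem_univ i))
  rw [EuclideanSpace.norm_eq]
  apply Real.sqrt_le_sqrt
  have h1 : ∀ i ∈ (Finset.univ : Finset (Fin n)), ‖θ i‖ ^ 2 ≤ (1 : ℝ) := by
    intro i _
    rw [Real.norm_eq_abs]
    exact pow_le_one₀ (abs_nonneg _) (h0 i).le
  calc ∑ i, ‖θ i‖ ^ 2 ≤ ∑ _i : Fin n, (1 : ℝ) := Finset.sum_le_sum h1
    _ = n := by simp

theorem ifp_amp_smooth : ContDiff ℝ ∞ (ifpAmp : E n → ℂ) := by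
  unfold ifpAmp
  exact Complex.ofRealCLM.contDiff.comp (contDiff_const.mul ifp_amp_chi_smooth)

theorem ifp_amp_supp (θ : E n) (h : ifpAmp θ ≠ 0) : ‖θ‖ ≤ Real.sqrt n := by
  apply ifp_amp_chi_supp
  intro h0
  apply h
  unfold ifpAmp
  rw [h0, mul_zero, Complex.ofReal_zero]

/-- **L-IFP-AMP** -/
theorem ifp_amp (n N : ℕ) : ∃ b : ℝ, 0 ≤ b ∧ IflAmp N (Real.sqrt n) b (ifpAmp : E n → ℂ) := by
  have hc : HasCompactSupport (ifpAmp : E n → ℂ) :=
    HasCompactSupport.of_support_subset_isCompact (isCompact_closedBall (0 : E n) (Real.sqrt n))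
      (fun θ hθ => by
        rw [mem_closedBall_zero_iff]
        exact ifp_amp_supp θ hθ)
  have hex : ∀ j : ℕ, ∃ C : ℝ, ∀ θ : E n, ‖iteratedFDeriv ℝ j (ifpAmp : E n → ℂ) θ‖ ≤ C := fun j =>
    (hc.iteratedFDeriv j).exists_bound_of_continuous
      (ifp_amp_smooth.continuous_iteratedFDeriv (by exact_mod_cast le_top))
  choose Λ hΛ using hex
  have hΛ0 : ∀ j, 0 ≤ Λ j := fun j => (norm_nonneg _).trans (hΛ j 0)
  refine ⟨∑ j ∈ Finset.range (N + 1), Λ j, Finset.sum_nonneg fun j _ => hΛ0 j, ifp_amp_smooth, ifp_amp_supp, fun j hj θ => ?_⟩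
  exact (hΛ j θ).trans (Finset.single_le_sum (f := Λ) (fun i _ => hΛ0 i) (Finset.mem_range.2 (by omega)))

theorem ifp_mult_coord (v : E n) (i : Fin n) : |v i| ≤ ‖v‖ := by
  have := PiLp.norm_apply_le v i
  rwa [Real.norm_eq_abs] at this

/-- **L-IFP-MULT** -/
theorem ifp_mult {L : ℝ} (hL : 0 < L) (s : Finset ((Fin n → ℤ) × (Fin n → ℤ))) :
    IflMult s (fun α => ((L • ifpOm L α.1, L⁻¹ • ifpY L α.2) : E n × E n)) (3 ^ n) := by
  intro q t _ ht
  have e1 : ∀ j : Fin n → ℤ, L • ifpOm L j = iflLat j := fun j => by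
    unfold ifpOm
    rw [smul_smul, mul_inv_cancel₀ hL.ne', one_smul]
  have e2 : ∀ m : Fin n → ℤ, L⁻¹ • ifpY L m = π • iflLat m := fun m => by
    unfold ifpY
    rw [smul_smul]
    congr 1
    field_simp
  have hco : ∀ α ∈ t, ∀ i, |(α.1 i : ℝ) - q.1 i| ≤ 1 ∧ |π * (α.2 i : ℝ) - q.2 i| ≤ 1 := by
    intro α hα i
    have h := ht α hα
    simp only [e1, e2] at h
    rw [mem_closedBall, Prod.dist_eq, max_le_iff, dist_eq_norm, dist_eq_norm] at h
    exact ⟨(ifp_mult_coord (iflLat α.1 - q.1) i).trans h.1, (ifp_mult_coord (π • iflLat α.2 - q.2) i).trans h.2⟩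
  let T : Fin n → Finset ℤ := fun i => Finset.Icc ⌈q.1 i - 1⌉ (⌈q.1 i - 1⌉ + 2)
  have hmaps : ∀ α ∈ t, α.1 ∈ Fintype.piFinset T := by
    intro α hα
    rw [Fintype.mem_piFinset]
    intro i
    have h := (hco α hα i).1
    rw [abs_le] at h
    rw [Finset.mem_Icc]
    constructor
    · exact Int.ceil_le.2 (by linarith [h.1])
    · have h1 : ((⌈q.1 i - 1⌉ : ℤ) : ℝ) ≥ q.1 i - 1 := Int.le_ceil _
      have h2 : (α.1 i : ℝ) < ((⌈q.1 i - 1⌉ + 3 : ℤ) : ℝ) := by
        push_cast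
        linarith [h.2]
      have h3 : α.1 i < ⌈q.1 i - 1⌉ + 3 := by exact_mod_cast h2
      omega
  have hinj : Set.InjOn (fun α : (Fin n → ℤ) × (Fin n → ℤ) => α.1) t := by
    intro α hα β hβ hαβ
    simp only at hαβ
    refine Prod.ext hαβ (funext fun i => ?_)
    have h1 := (hco α hα i).2
    have h2 := (hco β hβ i).2
    rw [abs_le] at h1 h2
    by_contra hne
    have h3 : (1 : ℝ) ≤ |(α.2 i : ℝ) - (β.2 i : ℝ)| := by
      have : (1 : ℤ) ≤ |α.2 i - β.2 i| := Int.one_le_abs (sub_ne_zero.2 hne)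
      exact_mod_cast this
    have h4 : π * |(α.2 i : ℝ) - (β.2 i : ℝ)| ≤ 2 := by
      rw [← abs_of_pos Real.pi_pos, ← abs_mul, abs_le]
      constructor <;> nlinarith [h1.1, h1.2, h2.1, h2.2]
    nlinarith [Real.pi_gt_three]
  calc t.card ≤ (Fintype.piFinset T).card := Finset.card_le_card_of_injOn _ hmaps hinj
    _ = 3 ^ n := by
        rw [Fintype.card_piFinset]
        have : ∀ i, (T i).card = 3 := fun i => by
          simp only [T, Int.card_Icc]
          have : ⌈q.1 i - 1⌉ + 2 + 1 - ⌈q.1 i - 1⌉ = 3 := by ring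
          rw [this]
          rfl
        simp only [this]
        simp

end Claimed.Agent.R257
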