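import Claimed.Agent.R257.Infra.Pkt.Amp

/-!
# R257 / Infra / Pkt / Coef : supports of the frame elements; vanishing coefficients.      (helper245)   GLUE: no `sorry` of its own.
-/

set_option autoImplicit false

namespace Claimed.Agent.R257

open MeasureTheory Metric Set
open scoped ENNReal ContDiff InnerProductSpace Real ComplexConjugate

variable {n : ℕ}

/-- regularity of a frame element -/
theorem ifp_V_reg {L : ℝ} (hL : 0 < L) (α : (Fin n → ℤ) × (Fin n → ℤ)) :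
    Continuous (ifpV L α) ∧ HasCompactSupport (ifpV L α) ∧ MemLp (ifpV L α) 2 volume ∧
      ∀ ξ, ifpV L α ξ ≠ 0 → ‖ξ - ifpOm L α.1‖ ≤ Real.sqrt n / L := by
  obtain ⟨b, _, hb⟩ := ifp_amp n 0
  obtain ⟨h1, h2, h3, h4⟩ := ifl_G_reg hL (ifpOm L α.1) (ifpY L α.2) 0 hb
  refine ⟨h1, h2, h3, fun ξ hξ => ?_⟩
  have := h4 ξ hξ
  rwa [smul_zero, add_zero] at this

/-- a label with a non zero coefficient is close to the support of the datum -/
theorem ifp_coef_ne {L : ℝ} (hL : 0 < L) {g : E n → ℂ} (α : (Fin n → ℤ) × (Fin n → ℤ)) (h : ifpC L g α ≠ 0) :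
    ∃ ξ, g ξ ≠ 0 ∧ ‖ξ - ifpOm L α.1‖ ≤ Real.sqrt n / L := by
  by_contra hcon
  push Not at hcon
  apply h
  unfold ifpC
  have e : (fun ξ => g ξ * conj (ifpV L α ξ)) = fun _ => 0 := by
    funext ξ
    by_cases hg : g ξ = 0
    · rw [hg, zero_mul]
    · have h1 := hcon ξ hg
      have h2 : ifpV L α ξ = 0 := by
        by_contra h3
        exact absurd ((ifp_V_reg hL α).2.2.2 ξ h3) (not_le.2 h1)
      rw [h2, map_zero, mul_zero]
  rw [e, integral_zero]

/-- the coefficients of the far slots vanish -/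
theorem ifp_coef_zero {L R₀ : ℝ} (hL : 0 < L) {g : E n → ℂ} (hg : Dat R₀ g) (α : (Fin n → ℤ) × (Fin n → ℤ))
    (h : R₀ + Real.sqrt n / L < ‖ifpOm L α.1‖) : ifpC L g α = 0 := by
  by_contra hne
  obtain ⟨ξ, h1, h2⟩ := ifp_coef_ne hL α hne
  have h3 := hg.supp ξ h1
  have h4 : ‖ifpOm L α.1‖ ≤ ‖ξ‖ + ‖ξ - ifpOm L α.1‖ := by
    have := norm_sub_le ξ (ξ - ifpOm L α.1)
    rwa [sub_sub_cancel] at this
  linarith

end Claimed.Agent.R257
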