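import Claimed.Agent.R257.Infra.Pkt.Pol
import Claimed.Agent.R257.Infra.Pkt.Coef
import Claimed.Agent.R257.Infra.Alg

/-!
# R257 / Infra / Pkt / Approx : LEAF L-IFP-APX: pointwise expansion of an exact field in exact packets, with a UNIFORM error bound.      (architect helper245)   ~300 l.

PLAN.  `ρ = R₀ + 2√n/L`, `B' = closedBall 0 ρ`, `h ξ = 1_{B'}(ξ) conj (car ξ z)`: measurable, bounded by `1`, `∫ ‖h‖² = vol B'`, in `L²`.
 (1) `∫ g conj h = ext g z` (`g = 0` off `closedBall 0 R₀ ⊆ B'`).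
 (2) `ifp_coef_zero`, `ifp_V_reg` (PROVED in `Coef.lean`): `v_α ξ ≠ 0 ⟹ ‖ξ - ω_j‖ ≤ √n/L`;  `c_α(g) = 0` if `R₀ + √n/L < ‖ω_j‖`.
 (3) `c_α(g) conj (c_α(h)) = c_α(g) ext v_α z`: either `R₀ + √n/L < ‖ω_j‖` and both sides vanish by (2), or the support of `v_α` lies in `B'` and `conj (c_α(h)) = ∫ car ξ z 1_{B'} v_α = ext v_α z` (`integral_conj`).
 (4) `ifp_hasSum` = `ifp_pair` + (1) + (3).
 (5) `ifp_approx`: `ext g z - ∑_I = ∑'_{α ∉ I} c_α(g) conj c_α(h)` (`HasSum` on the complement: `Finset.hasSum_compl_iff` / `hasSum_subtype...`), Cauchy-Schwarz for series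
 (`Real.inner_le_Lp_mul_Lq_tsum_of_nonneg` with `p = q = 2`, or: for finite sets `Finset.inner_mul_le_norm_mul_norm`/`Finset.sum_mul_sq_le_sq_mul_sq` and pass to the limit), `∑_{α∉I} |c_α(g)|² = ‖g‖² - ∑_I |c_α(g)|²`, `∑ |c_α(h)|² = vol B'` (`ifp_parseval`).   `C = (vol (closedBall 0 (R₀ + 2√n)))^{1/2}` (`L ≥ 1`).
-/

set_option autoImplicit false

namespace Claimed.Agent.R257

open MeasureTheory Metric Set
open scoped ENNReal ContDiff InnerProductSpace Real ComplexConjugate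

variable {n : ℕ}

/-- the test function `1_{B(0,ρ)} conj (car · z)` -/
noncomputable def ifpTest (ρ : ℝ) (z : ST n) (ξ : E n) : ℂ := (closedBall (0 : E n) ρ).indicator (fun ξ => conj (car ξ z)) ξ

theorem ifp_apx_test_mem (ρ : ℝ) (z : ST n) {ξ : E n} (h : ‖ξ‖ ≤ ρ) : ifpTest ρ z ξ = conj (car ξ z) := by
  unfold ifpTest
  rw [indicator_of_mem]
  rwa [mem_closedBall, dist_zero_right]

theorem ifp_apx_test_memLp (ρ : ℝ) (z : ST n) : MemLp (ifpTest ρ z) 2 volume := by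
  have e : ifpTest ρ z = (closedBall (0 : E n) ρ).indicator (fun ξ => conj (car ξ z)) := rfl
  rw [e, memLp_indicator_iff_restrict measurableSet_closedBall]
  haveI : IsFiniteMeasure (volume.restrict (closedBall (0 : E n) ρ)) :=
    ⟨by rw [Measure.restrict_apply_univ]; exact measure_closedBall_lt_top⟩
  refine MemLp.of_bound ?_ 1 (Filter.Eventually.of_forall fun ξ => ?_)
  · exact (Complex.continuous_conj.comp (inf_A2_car_cont z)).aestronglyMeasurable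
  · rw [RCLike.norm_conj, inf_car_norm]

theorem ifp_apx_test_norm (ρ : ℝ) (z : ST n) : ∫ ξ, ‖ifpTest ρ z ξ‖ ^ 2 = (volume (closedBall (0 : E n) ρ)).toReal := by
  have e : (fun ξ => ‖ifpTest ρ z ξ‖ ^ 2) = (closedBall (0 : E n) ρ).indicator (fun _ => (1 : ℝ)) := by
    funext ξ
    unfold ifpTest
    by_cases h : ξ ∈ closedBall (0 : E n) ρ
    · rw [indicator_of_mem h, indicator_of_mem h, RCLike.norm_conj, inf_car_norm, one_pow]
    · rw [indicator_of_notMem h, indicator_of_notMem h, norm_zero]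
      norm_num
  rw [e, integral_indicator measurableSet_closedBall, setIntegral_const, smul_eq_mul, mul_one]
  rfl

theorem ifp_apx_pair {R₀ ρ : ℝ} {g : E n → ℂ} (hg : Dat R₀ g) (hρ : R₀ ≤ ρ) (z : ST n) :
    ∫ ξ, g ξ * conj (ifpTest ρ z ξ) = ext g z := by
  unfold ext
  congr 1
  funext ξ
  by_cases h : g ξ = 0
  · rw [h, zero_mul, mul_zero]
  · rw [ifp_apx_test_mem ρ z ((hg.supp ξ h).trans hρ), Complex.conj_conj, mul_comm]

theorem ifp_apx_term {L R₀ ρ : ℝ} (hL : 0 < L) {g : E n → ℂ} (hg : Dat R₀ g) (hρ : R₀ + 2 * (Real.sqrt n / L) ≤ ρ) (z : ST n)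
    (α : (Fin n → ℤ) × (Fin n → ℤ)) :
    ifpC L g α * conj (ifpC L (ifpTest ρ z) α) = ifpC L g α * ext (ifpV L α) z := by
  by_cases h : R₀ + Real.sqrt n / L < ‖ifpOm L α.1‖
  · rw [ifp_coef_zero hL hg α h, zero_mul, zero_mul]
  · congr 1
    unfold ifpC ext
    rw [← integral_conj]
    congr 1
    funext ξ
    rw [map_mul, Complex.conj_conj]
    by_cases hv : ifpV L α ξ = 0
    · rw [hv, mul_zero, mul_zero]
    · have h1 := (ifp_V_reg hL α).2.2.2 ξ hv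
      have h2 : ‖ξ‖ ≤ ‖ifpOm L α.1‖ + ‖ξ - ifpOm L α.1‖ := by
        have := norm_add_le (ifpOm L α.1) (ξ - ifpOm L α.1)
        rwa [add_sub_cancel] at this
      rw [ifp_apx_test_mem ρ z (by linarith [not_lt.1 h]), Complex.conj_conj]

theorem ifp_apx_hasSum {L R₀ ρ : ℝ} (hL : 0 < L) {g : E n → ℂ} (hg : Dat R₀ g) (hρ : R₀ + 2 * (Real.sqrt n / L) ≤ ρ) (z : ST n) :
    HasSum (fun α : (Fin n → ℤ) × (Fin n → ℤ) => ifpC L g α * conj (ifpC L (ifpTest ρ z) α)) (ext g z) := by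
  have h := ifp_pair hL hg.l2 (ifp_apx_test_memLp ρ z)
  have h0 : 0 ≤ Real.sqrt n / L := by positivity
  rwa [ifp_apx_pair hg (by linarith) z] at h

/-- **L-IFP-APX** -/
theorem ifp_hasSum {L R₀ : ℝ} (hL : 0 < L) {g : E n → ℂ} (hg : Dat R₀ g) (z : ST n) :
    HasSum (fun α : (Fin n → ℤ) × (Fin n → ℤ) => ifpC L g α * ext (ifpV L α) z) (ext g z) :=
  (ifp_apx_hasSum hL hg le_rfl z).congr_fun fun α => (ifp_apx_term hL hg le_rfl z α).symm

/-- **L-IFP-APX** -/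
theorem ifp_approx (n : ℕ) (R₀ : ℝ) : ∃ C : ℝ, 0 ≤ C ∧ ∀ (L : ℝ) (g : E n → ℂ) (I : Finset ((Fin n → ℤ) × (Fin n → ℤ))) (z : ST n), 1 ≤ L → Dat R₀ g →
    ‖ext g z - ∑ α ∈ I, ifpC L g α * ext (ifpV L α) z‖ ≤ C * Real.sqrt ((∫ ξ, ‖g ξ‖ ^ 2) - ∑ α ∈ I, ‖ifpC L g α‖ ^ 2) := by
  refine ⟨Real.sqrt (volume (closedBall (0 : E n) (R₀ + 2 * Real.sqrt n))).toReal, Real.sqrt_nonneg _, fun L g I z hL hg => ?_⟩
  have hL0 : 0 < L := by linarith
  set ρ : ℝ := R₀ + 2 * Real.sqrt n with hρdef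
  have hρ : R₀ + 2 * (Real.sqrt n / L) ≤ ρ := by
    have : Real.sqrt n / L ≤ Real.sqrt n := div_le_self (Real.sqrt_nonneg _) hL
    rw [hρdef]
    linarith
  have hS := ifp_apx_hasSum hL0 hg hρ z
  have hG := ifp_parseval hL0 hg.l2
  have hH := ifp_parseval hL0 (ifp_apx_test_memLp ρ z)
  rw [ifp_apx_test_norm] at hH
  have e : ∑ α ∈ I, ifpC L g α * ext (ifpV L α) z = ∑ α ∈ I, ifpC L g α * conj (ifpC L (ifpTest ρ z) α) :=
    Finset.sum_congr rfl fun α _ => (ifp_apx_term hL0 hg hρ z α).symm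
  rw [e]
  have ht : Filter.Tendsto (fun I' : Finset ((Fin n → ℤ) × (Fin n → ℤ)) =>
      ‖∑ α ∈ I', ifpC L g α * conj (ifpC L (ifpTest ρ z) α) - ∑ α ∈ I, ifpC L g α * conj (ifpC L (ifpTest ρ z) α)‖) Filter.atTop
      (nhds ‖ext g z - ∑ α ∈ I, ifpC L g α * conj (ifpC L (ifpTest ρ z) α)‖) :=
    (Filter.Tendsto.sub_const hS _).norm
  refine le_of_tendsto ht ?_
  filter_upwards [Filter.eventually_ge_atTop I] with I' hI'
  have hI'' : I ⊆ I' := hI'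
  rw [← Finset.sum_sdiff hI'', add_sub_cancel_right]
  have h1 : ∑ α ∈ I' \ I, ‖ifpC L g α‖ ^ 2 ≤ (∫ ξ, ‖g ξ‖ ^ 2) - ∑ α ∈ I, ‖ifpC L g α‖ ^ 2 := by
    have := sum_le_hasSum I' (fun α _ => by positivity) hG
    rw [← Finset.sum_sdiff hI''] at this
    linarith
  have h2 : ∑ α ∈ I' \ I, ‖ifpC L (ifpTest ρ z) α‖ ^ 2 ≤ (volume (closedBall (0 : E n) ρ)).toReal :=
    sum_le_hasSum _ (fun α _ => by positivity) hH
  calc ‖∑ α ∈ I' \ I, ifpC L g α * conj (ifpC L (ifpTest ρ z) α)‖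
      ≤ ∑ α ∈ I' \ I, ‖ifpC L g α‖ * ‖ifpC L (ifpTest ρ z) α‖ := by
        refine (norm_sum_le _ _).trans (Finset.sum_le_sum fun α _ => ?_)
        rw [norm_mul, RCLike.norm_conj]
    _ ≤ Real.sqrt (∑ α ∈ I' \ I, ‖ifpC L g α‖ ^ 2) * Real.sqrt (∑ α ∈ I' \ I, ‖ifpC L (ifpTest ρ z) α‖ ^ 2) :=
        Real.sum_mul_le_sqrt_mul_sqrt _ _ _
    _ ≤ Real.sqrt ((∫ ξ, ‖g ξ‖ ^ 2) - ∑ α ∈ I, ‖ifpC L g α‖ ^ 2) * Real.sqrt (volume (closedBall (0 : E n) ρ)).toReal :=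
        mul_le_mul (Real.sqrt_le_sqrt h1) (Real.sqrt_le_sqrt h2) (Real.sqrt_nonneg _) (Real.sqrt_nonneg _)
    _ = _ := mul_comm _ _

end Claimed.Agent.R257
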