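import Claimed.Agent.R257.Infra.Pkt.Defs
import Claimed.Agent.R255.Pk.FourierSq

/-!
# R257 / Infra / Pkt / Cube : LEAF L-IFP-CUBE: Parseval for Fourier series on a cube of `E n`.      (architect helper245)   ~350 l.   CLONE.

CLONE of `R255/Pk/Fourier.lean` + `R255/Pk/FourierSq.lean` (sorry-free, for `E2 = EuclideanSpace ℝ (Fin 2)`): replace `Fin 2` by `Fin n`; no reindexing `Fin 2 → ℤ ≃ ℤ × ℤ`;
 `Fin.prod_univ_two`, `Fin.sum_univ_two` become `Complex.exp_sum` / `Finset.prod`;   `pkDot n (v - V)` becomes `⟪iflLat m, v - V⟫_ℝ = ∑ i, m i * (v i - V i)` (`PiLp.inner_apply` / `EuclideanSpace.inner_eq_star_dotProduct`);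
 the Jacobian `l²` becomes `lⁿ` (`finrank_euclideanSpace_fin`) `=` the two factors `l^(-n/2)` of the modes (`Real.rpow_natCast`, `Real.rpow_add`).
 Only the quadratic form (`pk_fourier_parseval`) is needed; it is deduced there from the bilinear one.
-/

set_option autoImplicit false

namespace Claimed.Agent.R257

open MeasureTheory Metric Set
open scoped ENNReal ContDiff InnerProductSpace Real ComplexConjugate

variable {n : ℕ}

attribute [local instance] instMeasureSpaceUnitAddCircle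

theorem ifp_cube_ucube_measurable (a : Fin n → ℝ) :
    MeasurableSet {x : Fin n → ℝ | ∀ i, x i ∈ Ioc (a i) (a i + 1)} :=
  MeasurableSet.univ_pi' fun _ => measurableSet_Ioc

theorem ifp_cube_mFourier_coe (m : Fin n → ℤ) (x : Fin n → ℝ) :
    UnitAddTorus.mFourier m (fun i => (x i : UnitAddCircle))
      = Complex.exp (Complex.I * ((2 * Real.pi * ∑ i, m i * x i : ℝ) : ℂ)) := by
  have e : UnitAddTorus.mFourier m (fun i => (x i : UnitAddCircle))
      = ∏ i, fourier (m i) ((x i : UnitAddCircle)) := rfl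
  rw [e]
  simp only [fourier_coe_apply]
  rw [← Complex.exp_sum]
  congr 1
  push_cast
  rw [Finset.mul_sum, Finset.mul_sum]
  refine Finset.sum_congr rfl fun i _ => ?_
  ring

theorem ifp_cube_mFourier_neg_coe (m : Fin n → ℤ) (x : Fin n → ℝ) :
    UnitAddTorus.mFourier (-m) (fun i => (x i : UnitAddCircle))
      = Complex.exp (-(Complex.I * ((2 * Real.pi * ∑ i, m i * x i : ℝ) : ℂ))) := by
  rw [UnitAddTorus.mFourier_neg, ifp_cube_mFourier_coe, ← Complex.exp_conj, map_mul, Complex.conj_I,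
    Complex.conj_ofReal, neg_mul]

/-- transport of a function on the cube to the torus -/
noncomputable def ifpCubeTor (a : Fin n → ℝ) (H : (Fin n → ℝ) → ℂ) : UnitAddTorus (Fin n) → ℂ :=
  fun t => H (UnitAddTorus.measurableEquivPiIoc a t).1

theorem ifp_cube_tor_coe (a : Fin n → ℝ) (H : (Fin n → ℝ) → ℂ) (x : Fin n → ℝ)
    (hx : x ∈ {x : Fin n → ℝ | ∀ i, x i ∈ Ioc (a i) (a i + 1)}) :
    ifpCubeTor a H (fun i => (x i : UnitAddCircle)) = H x := by
  unfold ifpCubeTor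
  have e : (fun i => (x i : UnitAddCircle)) = (UnitAddTorus.measurableEquivPiIoc a).symm ⟨x, hx⟩ := rfl
  rw [e, MeasurableEquiv.apply_symm_apply]

theorem ifp_cube_tor_memLp (a : Fin n → ℝ) (H : (Fin n → ℝ) → ℂ)
    (hH : MemLp H 2 (volume.restrict {x : Fin n → ℝ | ∀ i, x i ∈ Ioc (a i) (a i + 1)})) :
    MemLp (ifpCubeTor a H) 2 (volume : Measure (UnitAddTorus (Fin n))) := by
  have hC := ifp_cube_ucube_measurable a
  rw [← map_comap_subtype_coe hC volume, (MeasurableEmbedding.subtype_coe hC).memLp_map_measure_iff] at hH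
  exact hH.comp_measurePreserving (UnitAddTorus.measurePreserving_equivPiIoc a)

theorem ifp_cube_tor_integral {F₀ : Type} [NormedAddCommGroup F₀] [NormedSpace ℝ F₀]
    (a : Fin n → ℝ) (F : UnitAddTorus (Fin n) → F₀) (F' : (Fin n → ℝ) → F₀)
    (h : ∀ x ∈ {x : Fin n → ℝ | ∀ i, x i ∈ Ioc (a i) (a i + 1)}, F (fun i => (x i : UnitAddCircle)) = F' x) :
    ∫ t, F t = ∫ x in {x : Fin n → ℝ | ∀ i, x i ∈ Ioc (a i) (a i + 1)}, F' x := by
  rw [UnitAddTorus.integral_preimage F a]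
  exact setIntegral_congr_fun (ifp_cube_ucube_measurable a) h

/-- unit cube, functions on `Fin n → ℝ`: Parseval -/
theorem ifp_cube_unit (a : Fin n → ℝ) (H : (Fin n → ℝ) → ℂ)
    (hH : MemLp H 2 (volume.restrict {x : Fin n → ℝ | ∀ i, x i ∈ Ioc (a i) (a i + 1)})) :
    HasSum (fun m : Fin n → ℤ =>
      ‖∫ x in {x : Fin n → ℝ | ∀ i, x i ∈ Ioc (a i) (a i + 1)}, H x * Complex.exp (-(Complex.I * ((2 * Real.pi * ∑ i, m i * x i : ℝ) : ℂ)))‖ ^ 2)
      (∫ x in {x : Fin n → ℝ | ∀ i, x i ∈ Ioc (a i) (a i + 1)}, ‖H x‖ ^ 2) := by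
  have hH' := ifp_cube_tor_memLp a H hH
  have key := UnitAddTorus.hasSum_sq_mFourierCoeff (hH'.toLp _)
  have aeH := hH'.coeFn_toLp
  have e_tot : ∫ t, ‖(hH'.toLp _) t‖ ^ 2
      = ∫ x in {x : Fin n → ℝ | ∀ i, x i ∈ Ioc (a i) (a i + 1)}, ‖H x‖ ^ 2 := by
    have h1 : ∫ t, ‖(hH'.toLp _) t‖ ^ 2 = ∫ t, ‖ifpCubeTor a H t‖ ^ 2 := by
      refine integral_congr_ae ?_
      filter_upwards [aeH] with t h2
      rw [h2]
    rw [h1]
    refine ifp_cube_tor_integral a _ _ fun x hx => ?_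
    rw [ifp_cube_tor_coe a H x hx]
  have e_H : ∀ m, UnitAddTorus.mFourierCoeff (hH'.toLp _) m
      = ∫ x in {x : Fin n → ℝ | ∀ i, x i ∈ Ioc (a i) (a i + 1)},
        H x * Complex.exp (-(Complex.I * ((2 * Real.pi * ∑ i, m i * x i : ℝ) : ℂ))) := by
    intro m
    unfold UnitAddTorus.mFourierCoeff
    have h1 : ∫ t, UnitAddTorus.mFourier (-m) t • (hH'.toLp _) t
        = ∫ t, UnitAddTorus.mFourier (-m) t * ifpCubeTor a H t := by
      refine integral_congr_ae ?_
      filter_upwards [aeH] with t h2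
      rw [h2, smul_eq_mul]
    rw [h1]
    refine ifp_cube_tor_integral a _ _ fun x hx => ?_
    rw [ifp_cube_tor_coe a H x hx, ifp_cube_mFourier_neg_coe, mul_comm]
  rw [e_tot] at key
  refine key.congr_fun fun m => ?_
  rw [e_H]

/-- the affine chart `x ↦ V + l x` -/
noncomputable def ifpCubeAff (V : E n) (l : ℝ) (x : Fin n → ℝ) : E n := V + l • (WithLp.toLp 2 x : E n)

theorem ifp_cube_aff_apply (V : E n) (l : ℝ) (x : Fin n → ℝ) (i : Fin n) : ifpCubeAff V l x i = V i + l * x i := by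
  unfold ifpCubeAff
  simp

theorem ifp_cube_aff_emb (V : E n) {l : ℝ} (hl : 0 < l) : MeasurableEmbedding (ifpCubeAff V l) := by
  have h1 : MeasurableEmbedding (fun x : Fin n → ℝ => (WithLp.toLp 2 x : E n)) :=
    (MeasurableEquiv.toLp 2 (Fin n → ℝ)).measurableEmbedding
  have h2 : MeasurableEmbedding (fun w : E n => l • w) := measurableEmbedding_const_smul₀ hl.ne'
  have h3 : MeasurableEmbedding (fun w : E n => V + w) := measurableEmbedding_addLeft V
  exact h3.comp (h2.comp h1)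

theorem ifp_cube_aff_map (V : E n) {l : ℝ} (hl : 0 < l) :
    Measure.map (ifpCubeAff V l) volume = ENNReal.ofReal ((l ^ n)⁻¹) • (volume : Measure (E n)) := by
  have h1 : Measurable (fun x : Fin n → ℝ => (WithLp.toLp 2 x : E n)) :=
    (MeasurableEquiv.toLp 2 (Fin n → ℝ)).measurable
  have h2 : Measurable (fun w : E n => l • w) := measurable_const_smul l
  have h3 : Measurable (fun w : E n => V + w) := measurable_const_add V
  have e : ifpCubeAff V l = (fun w : E n => V + w) ∘ (fun w : E n => l • w) ∘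
      (fun x : Fin n → ℝ => (WithLp.toLp 2 x : E n)) := rfl
  rw [e, ← Measure.map_map h3 (h2.comp h1), ← Measure.map_map h2 h1,
    (PiLp.volume_preserving_toLp (Fin n)).map_eq, Measure.map_addHaar_smul _ hl.ne', Measure.map_smul,
    map_add_left_eq_self]
  congr 2
  rw [finrank_euclideanSpace_fin, abs_of_pos (by positivity)]

theorem ifp_cube_aff_preimage (V : E n) {l : ℝ} (hl : 0 < l) :
    ifpCubeAff V l ⁻¹' ifpCube V l = {x : Fin n → ℝ | ∀ i, x i ∈ Ioc (-(1 / 2) : ℝ) (-(1 / 2) + 1)} := by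
  ext x
  unfold ifpCube
  simp only [mem_preimage, mem_ofPred_eq, ifp_cube_aff_apply, mem_Ioc]
  refine forall_congr' fun i => ?_
  constructor
  · rintro ⟨h1, h2⟩
    constructor
    · by_contra hc
      have : l * x i ≤ l * (-(1 / 2)) := mul_le_mul_of_nonneg_left (not_lt.1 hc) hl.le
      linarith
    · by_contra hc
      have : l * (-(1 / 2) + 1) < l * x i := mul_lt_mul_of_pos_left (not_le.1 hc) hl
      linarith
  · rintro ⟨h1, h2⟩
    constructor
    · have : l * (-(1 / 2)) < l * x i := mul_lt_mul_of_pos_left h1 hl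
      linarith
    · have : l * x i ≤ l * (-(1 / 2) + 1) := mul_le_mul_of_nonneg_left h2 hl.le
      linarith

theorem ifp_cube_aff_restrict (V : E n) {l : ℝ} (hl : 0 < l) :
    Measure.map (ifpCubeAff V l) (volume.restrict {x : Fin n → ℝ | ∀ i, x i ∈ Ioc (-(1 / 2) : ℝ) (-(1 / 2) + 1)})
      = ENNReal.ofReal ((l ^ n)⁻¹) • (volume.restrict (ifpCube V l) : Measure (E n)) := by
  rw [← ifp_cube_aff_preimage V hl, ← (ifp_cube_aff_emb V hl).restrict_map, ifp_cube_aff_map V hl, Measure.restrict_smul]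

theorem ifp_cube_aff_integral {F₀ : Type} [NormedAddCommGroup F₀] [NormedSpace ℝ F₀]
    (V : E n) {l : ℝ} (hl : 0 < l) (F : E n → F₀) :
    ∫ x in {x : Fin n → ℝ | ∀ i, x i ∈ Ioc (-(1 / 2) : ℝ) (-(1 / 2) + 1)}, F (ifpCubeAff V l x)
      = ((l ^ n)⁻¹ : ℝ) • ∫ v in ifpCube V l, F v := by
  rw [← (ifp_cube_aff_emb V hl).integral_map, ifp_cube_aff_restrict V hl, integral_smul_measure,
    ENNReal.toReal_ofReal (by positivity)]

theorem ifp_cube_aff_memLp (V : E n) {l : ℝ} (hl : 0 < l) (H : E n → ℂ) (hH : MemLp H 2 (volume.restrict (ifpCube V l))) :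
    MemLp (fun x => H (ifpCubeAff V l x)) 2
      (volume.restrict {x : Fin n → ℝ | ∀ i, x i ∈ Ioc (-(1 / 2) : ℝ) (-(1 / 2) + 1)}) := by
  have h1 : MemLp H 2 (ENNReal.ofReal ((l ^ n)⁻¹) • (volume.restrict (ifpCube V l) : Measure (E n))) :=
    hH.smul_measure ENNReal.ofReal_ne_top
  rw [← ifp_cube_aff_restrict V hl, (ifp_cube_aff_emb V hl).memLp_map_measure_iff] at h1
  exact h1

theorem ifp_cube_aff_dot (V : E n) {l : ℝ} (hl : 0 < l) (m : Fin n → ℤ) (x : Fin n → ℝ) :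
    2 * π * ⟪iflLat m, ifpCubeAff V l x - V⟫_ℝ / l = 2 * Real.pi * ∑ i, m i * x i := by
  have e : ifpCubeAff V l x - V = l • (WithLp.toLp 2 x : E n) := by
    unfold ifpCubeAff
    abel
  rw [e, inner_smul_right]
  have e2 : ⟪iflLat m, (WithLp.toLp 2 x : E n)⟫_ℝ = ∑ i, m i * x i := by
    unfold iflLat
    rw [PiLp.inner_apply]
    refine Finset.sum_congr rfl fun i _ => ?_
    simp [mul_comm]
  rw [e2]
  field_simp

theorem ifp_cube_mode_conj (V : E n) (l : ℝ) (m : Fin n → ℤ) (v : E n) :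
    conj (ifpMode V l m v) = ((l ^ (-(n : ℝ) / 2) : ℝ) : ℂ) *
      Complex.exp (-(Complex.I * ((2 * π * ⟪iflLat m, v - V⟫_ℝ / l : ℝ) : ℂ))) := by
  unfold ifpMode iflE
  rw [map_mul, Complex.conj_ofReal, ← Complex.exp_conj, map_mul, Complex.conj_I, Complex.conj_ofReal, neg_mul]

/-- **L-IFP-CUBE** -/
theorem ifp_cube_measurable (V : E n) (l : ℝ) : MeasurableSet (ifpCube V l) := by
  unfold ifpCube
  have hm : ∀ i : Fin n, Measurable fun v : E n => v i - V i := fun i =>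
    ((EuclideanSpace.proj i : E n →L[ℝ] ℝ).continuous.measurable).sub_const _
  have e : {v : E n | ∀ i, -(l / 2) < v i - V i ∧ v i - V i ≤ l / 2}
      = ⋂ i, ({v : E n | -(l / 2) < v i - V i} ∩ {v : E n | v i - V i ≤ l / 2}) := by
    ext v
    simp only [mem_ofPred_eq, mem_iInter, mem_inter_iff]
  rw [e]
  exact MeasurableSet.iInter fun i =>
    (measurableSet_lt measurable_const (hm i)).inter (measurableSet_le (hm i) measurable_const)

/-- **L-IFP-CUBE** -/
theorem ifp_cube_parseval (V : E n) {l : ℝ} (hl : 0 < l) (H : E n → ℂ) (hH : MemLp H 2 (volume.restrict (ifpCube V l))) :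
    HasSum (fun m : Fin n → ℤ => ‖∫ v in ifpCube V l, H v * conj (ifpMode V l m v)‖ ^ 2) (∫ v in ifpCube V l, ‖H v‖ ^ 2) := by
  have key := ifp_cube_unit (fun _ => -(1 / 2)) (fun x => H (ifpCubeAff V l x)) (ifp_cube_aff_memLp V hl H hH)
  have e_tot := ifp_cube_aff_integral V hl fun v => ‖H v‖ ^ 2
  have hln : 0 < l ^ n := by positivity
  have hc : 0 < l ^ (-(n : ℝ) / 2) := Real.rpow_pos_of_pos hl _
  have hcc : l ^ (-(n : ℝ) / 2) * l ^ (-(n : ℝ) / 2) = (l ^ n)⁻¹ := by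
    rw [← Real.rpow_add hl, ← Real.rpow_natCast, ← Real.rpow_neg hl.le]
    congr 1
    ring
  have e_H : ∀ m : Fin n → ℤ,
      ∫ x in {x : Fin n → ℝ | ∀ i, x i ∈ Ioc (-(1 / 2) : ℝ) (-(1 / 2) + 1)},
        H (ifpCubeAff V l x) * Complex.exp (-(Complex.I * ((2 * Real.pi * ∑ i, m i * x i : ℝ) : ℂ)))
      = ((l ^ (-(n : ℝ) / 2) : ℝ) : ℂ) * ∫ v in ifpCube V l, H v * conj (ifpMode V l m v) := by
    intro m
    have h1 := ifp_cube_aff_integral V hl fun v => H v *
      Complex.exp (-(Complex.I * ((2 * π * ⟪iflLat m, v - V⟫_ℝ / l : ℝ) : ℂ)))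
    simp only [ifp_cube_aff_dot V hl] at h1
    rw [h1]
    simp only [ifp_cube_mode_conj]
    have h3 : ∀ v : E n, H v * (((l ^ (-(n : ℝ) / 2) : ℝ) : ℂ) *
        Complex.exp (-(Complex.I * ((2 * π * ⟪iflLat m, v - V⟫_ℝ / l : ℝ) : ℂ))))
        = ((l ^ (-(n : ℝ) / 2) : ℝ) : ℂ) * (H v *
        Complex.exp (-(Complex.I * ((2 * π * ⟪iflLat m, v - V⟫_ℝ / l : ℝ) : ℂ)))) := by
      intro v
      ring
    simp only [h3]
    rw [integral_const_mul, ← mul_assoc, Complex.real_smul, ← Complex.ofReal_mul, hcc]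
  simp only [e_H, e_tot] at key
  have key2 := key.mul_left (l ^ n)
  have e1 : l ^ n * ((l ^ n)⁻¹ • ∫ v in ifpCube V l, ‖H v‖ ^ 2) = ∫ v in ifpCube V l, ‖H v‖ ^ 2 := by
    rw [smul_eq_mul, ← mul_assoc, mul_inv_cancel₀ hln.ne', one_mul]
  rw [e1] at key2
  refine key2.congr_fun fun m => ?_
  rw [norm_mul, Complex.norm_real, Real.norm_eq_abs, abs_of_pos hc, mul_pow, sq (l ^ (-(n : ℝ) / 2)), hcc,
    ← mul_assoc, mul_inv_cancel₀ hln.ne', one_mul]

end Claimed.Agent.R257
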