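import Claimed.Agent.R257.Infra.Lay.Basic

/-!
# R257 / Infra / Pkt / Defs : EXACT PACKETS = TIGHT FRAME OF `L²(E n)` (INFRA U4, U5; H fractal.tex Lemma d:packet-expansion, endpoint.tex (e:parseval)).  DEFINITIONS + PLAN      (architect helper245)

Prefix `ifp`.   Consumers: helper53 (U7 `inf_compact_layers`), helper188 (`PktStmt`, contract A from the engine of helper7).

## MATHEMATICS   (`L > 0` scale, `χ = ifpChi = ∏ pkWin1(θ_i)`, `χ² = iflWin`, `∑_j χ(η - j)² = 1`, `supp χ ⊆ (-1,1)ⁿ`)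
* labels `α = (j,m) ∈ ℤⁿ × ℤⁿ`: frequency `ω_j = ifpOm L j = j/L`, intercept `y_m = ifpY L m = π L m`;   normalised labels `(L ω_j, y_m/L) = (j, π m)`: at most `3ⁿ` in a closed unit ball (`ifp_mult`).
* frame element `v_α = ifpV L α = iflG L ω_j y_m 0 ifpAmp`, i.e. `v_α(ξ) = (L/2)^{n/2} χ(L(ξ-ω_j)) e(-π L m·(ξ-ω_j))`   (`ifpAmp = (2π)ⁿ 2^{-n/2} χ`): ALL the toolkit of `Infra/Lay` applies
  (`ifl_ext`: `ext v_α z = L^{-n/2} car ω_j z · H(chart L ω_j y_m 0 z)`, `H = iflH ifpAmp 0`; `ifl_G_reg`, `ifl_bessel`, `ifl_pkt_decay`).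
* coefficients `c_α = ifpC L g α = ∫ g conj v_α`.
* `ifp_cube_parseval` (Fourier series on a cube of `E n`) ⟹ `ifp_slot` (`∑_m |c_{jm}|² = ∫ χ_j² |g|²`) ⟹ `ifp_parseval` (`∑_α |c_α|² = ‖g‖²`: TIGHT) ⟹ `ifp_pair` (polarisation)
  ⟹ `ifp_hasSum` (`ext g z = ∑_α c_α ext v_α z`), `ifp_approx` (`|ext g z - ∑_I c_α ext v_α z| ≤ C (‖g‖² - ∑_I |c_α|²)^{1/2}`, UNIFORMLY in `z`).
* `ifp_xarr`: every finite set of labels with `‖ω_j‖ ≤ Rw` is an exact array of the class `(A, Rw, √n, C₂, C₃, 3ⁿ)` of `Sp/Defs.lean`, shift `0`.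
* U5 (`Prof.lean`): `iflH a 0` is smooth, `D^j (iflH a 0) X v = iflH (a ∏ p_{v_i}) 0 X`, `p_v(θ) = i(v.1·θ - v.2|θ|²)`;   `‖D^j (iflH a 0) X‖ ≤ C b (1+‖X.1‖)^(-N)` for `|X.2| ≤ T`.

## FILES (ONE FILE = ONE LEAF unless said otherwise; prove IN PLACE, helper lemmas above the theorem with the prefix of the leaf; statements frozen: tell helper245 at once if one looks false or awkward)
`Cube` L-IFP-CUBE | `Slot` L-IFP-SLOT | `Pars` L-IFP-PARS | `Pol` L-IFP-POL | `Approx` L-IFP-APX | `Amp` L-IFP-AMP, L-IFP-MULT | `XA` (glue) | `Iter` L-IFP-ITER | `Poly` L-IFP-POLY | `Prof` (glue).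
-/

set_option autoImplicit false

namespace Claimed.Agent.R257

open MeasureTheory Metric Set
open scoped ENNReal ContDiff InnerProductSpace Real ComplexConjugate

variable {n : ℕ}

/-- the window `χ(θ) = ∏ pkWin1(θ_i)`;   `iflWin = χ²` -/
noncomputable def ifpChi (θ : E n) : ℝ := ∏ i, R255.pkWin1 (θ i)

/-- the native amplitude `(2π)ⁿ 2^{-n/2} χ` of the frame elements -/
noncomputable def ifpAmp (θ : E n) : ℂ := (((2 * π) ^ n * 2 ^ (-(n : ℝ) / 2) * ifpChi θ : ℝ) : ℂ)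

/-- frame frequencies `j/L` -/
noncomputable def ifpOm (L : ℝ) (j : Fin n → ℤ) : E n := L⁻¹ • iflLat j

/-- frame intercepts `π L m` -/
noncomputable def ifpY (L : ℝ) (m : Fin n → ℤ) : E n := (π * L) • iflLat m

/-- the frame element `(L/2)^{n/2} χ(L(ξ-ω_j)) e(-π L m·(ξ-ω_j))` -/
noncomputable def ifpV (L : ℝ) (α : (Fin n → ℤ) × (Fin n → ℤ)) : E n → ℂ := iflG L (ifpOm L α.1) (ifpY L α.2) 0 ifpAmp

/-- the frame coefficient -/
noncomputable def ifpC (L : ℝ) (g : E n → ℂ) (α : (Fin n → ℤ) × (Fin n → ℤ)) : ℂ := ∫ ξ, g ξ * conj (ifpV L α ξ)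

/-- the half open cube of centre `V` and side `l` -/
def ifpCube (V : E n) (l : ℝ) : Set (E n) := {v | ∀ i, -(l / 2) < v i - V i ∧ v i - V i ≤ l / 2}

/-- the normalised Fourier mode of the cube -/
noncomputable def ifpMode (V : E n) (l : ℝ) (m : Fin n → ℤ) (v : E n) : ℂ :=
  ((l ^ (-(n : ℝ) / 2) : ℝ) : ℂ) * iflE (2 * π * ⟪iflLat m, v - V⟫_ℝ / l)

/-- the symbol of the derivative of a native field in the direction `v` -/
noncomputable def ifpP (v : ST n) (θ : E n) : ℂ := Complex.I * ((⟪v.1, θ⟫_ℝ - v.2 * ‖θ‖ ^ 2 : ℝ) : ℂ)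

end Claimed.Agent.R257
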