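import Claimed.Agent.R257.Infra.Pkt.Slot
import Claimed.Agent.R257.Infra.Lay.Win

/-!
# R257 / Infra / Pkt / Pars : LEAF L-IFP-PARS: the frame is tight.      (architect helper245)   ~150 l.

PLAN.  `F j ξ = iflWin (L•(ξ - ω_j)) ‖g ξ‖²  ≥ 0`, `L•(ξ - L⁻¹•j) = L•ξ - j`, `∑_j F j ξ = ‖g ξ‖²` (`ifl_win_sum (L•ξ)`, `HasSum.mul_right`).   `F j` integrable (`0 ≤ iflWin ≤ 1`: `ifl_win_range`; measurable: `ifl_win_smooth`; `‖g‖²` integrable: `MemLp.integrable_norm_pow`/`memLp_two_iff_integrable_sq_norm`).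
 `∑_j ∫ F j = ∫ ‖g‖²`: finite partial sums are `≤ ∫ ‖g‖²` (`integral_finset_sum`, `sum_le_hasSum`), so `Summable (fun j => ∫ ‖F j‖)`; `hasSum_integral_of_summable_integral_norm`.
 Product index: nonnegative terms: `summable_prod_of_nonneg`, `HasSum.prod_fiberwise` / `Summable.hasSum` + `Summable.tsum_prod'`, with `ifp_slot`.
-/

set_option autoImplicit false

namespace Claimed.Agent.R257

open MeasureTheory Metric Set
open scoped ENNReal ContDiff InnerProductSpace Real ComplexConjugate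

variable {n : ℕ}

/-- **L-IFP-PARS** -/
theorem ifp_parseval {L : ℝ} (hL : 0 < L) {g : E n → ℂ} (hg : MemLp g 2 volume) :
    HasSum (fun α : (Fin n → ℤ) × (Fin n → ℤ) => ‖ifpC L g α‖ ^ 2) (∫ ξ, ‖g ξ‖ ^ 2) := by
  have hgi : Integrable (fun ξ => ‖g ξ‖ ^ 2) volume := (memLp_two_iff_integrable_sq_norm hg.1).1 hg
  set F : (Fin n → ℤ) → E n → ℝ := fun j ξ => iflWin (L • (ξ - ifpOm L j)) * ‖g ξ‖ ^ 2 with hF
  have hF0 : ∀ j ξ, 0 ≤ F j ξ := fun j ξ => mul_nonneg (ifl_win_range _).1 (by positivity)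
  have hFle : ∀ j ξ, F j ξ ≤ ‖g ξ‖ ^ 2 := fun j ξ => mul_le_of_le_one_left (by positivity) (ifl_win_range _).2
  have hFm : ∀ j, AEStronglyMeasurable (F j) volume := by
    intro j
    have hc : Continuous fun ξ : E n => iflWin (L • (ξ - ifpOm L j)) :=
      ifl_win_smooth.continuous.comp (by fun_prop)
    exact hc.aestronglyMeasurable.mul hgi.1
  have hFi : ∀ j, Integrable (F j) volume := by
    intro j
    refine hgi.mono (hFm j) (Filter.Eventually.of_forall fun ξ => ?_)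
    rw [Real.norm_eq_abs, Real.norm_eq_abs, abs_of_nonneg (hF0 j ξ), abs_of_nonneg (by positivity)]
    exact hFle j ξ
  have hsum : ∀ ξ, HasSum (fun j => F j ξ) (‖g ξ‖ ^ 2) := by
    intro ξ
    have h1 := (ifl_win_sum (L • ξ)).mul_right (‖g ξ‖ ^ 2)
    rw [one_mul] at h1
    refine h1.congr_fun fun j => ?_
    simp only [hF]
    congr 2
    unfold ifpOm
    rw [smul_sub, smul_smul, mul_inv_cancel₀ hL.ne', one_smul]
  have hSn : Summable fun j => ∫ ξ, ‖F j ξ‖ := by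
    refine summable_of_sum_le (c := ∫ ξ, ‖g ξ‖ ^ 2) (fun j => integral_nonneg fun ξ => norm_nonneg _) fun s => ?_
    rw [← integral_finsetSum _ fun j _ => (hFi j).norm]
    refine integral_mono (integrable_finsetSum _ fun j _ => (hFi j).norm) hgi fun ξ => ?_
    simp only [Real.norm_eq_abs, abs_of_nonneg (hF0 _ ξ)]
    exact sum_le_hasSum s (fun j _ => hF0 j ξ) (hsum ξ)
  have hJ : HasSum (fun j => ∫ ξ, F j ξ) (∫ ξ, ‖g ξ‖ ^ 2) := by
    have h1 := hasSum_integral_of_summable_integral_norm hFi hSn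
    have e : ∫ ξ, ∑' j, F j ξ = ∫ ξ, ‖g ξ‖ ^ 2 :=
      integral_congr_ae (Filter.Eventually.of_forall fun ξ => (hsum ξ).tsum_eq)
    rwa [e] at h1
  have hslot : ∀ j, HasSum (fun m : Fin n → ℤ => ‖ifpC L g (j, m)‖ ^ 2) (∫ ξ, F j ξ) := fun j => ifp_slot hL hg j
  have hS : Summable fun α : (Fin n → ℤ) × (Fin n → ℤ) => ‖ifpC L g α‖ ^ 2 := by
    rw [summable_prod_of_nonneg fun α => by positivity]
    refine ⟨fun j => (hslot j).summable, ?_⟩
    simp only [(hslot _).tsum_eq]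
    exact hJ.summable
  have e := hS.tsum_prod' fun j => (hslot j).summable
  simp only [(hslot _).tsum_eq] at e
  rw [hJ.tsum_eq] at e
  rw [← e]
  exact hS.hasSum

end Claimed.Agent.R257
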