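import Claimed.Agent.R257.Infra.Pkt.Pars
import Claimed.Agent.R257.Infra.Pkt.Coef

/-!
# R257 / Infra / Pkt / Pol : LEAF L-IFP-POL: polarised Parseval.      (architect helper245)   ~200 l.

PLAN.  `4 a conj b = |a+b|² - |a-b|² + i|a+ib|² - i|a-ib|²` for complex numbers, pointwise under the integral and for the coefficients.   `ifpC L` is linear in `g` on `L²`: `g conj v_α` is integrable (`MemLp.integrable_mul`, `v_α ∈ L²`: `ifp_V_reg`),
 `integral_add`, `integral_const_mul`.   Apply `ifp_parseval` to `g + h`, `g - h`, `g + i h`, `g - i h` (`MemLp.add`, `MemLp.const_mul`), cast to `ℂ` (`Complex.hasSum_ofReal`), combine with `HasSum.add/sub/mul_left`;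
 `∫ g conj h` from the four integrals of squares (`integral_add`, ...; all integrable: `MemLp.integrable_norm_pow`, `MemLp.integrable_mul`).
-/

set_option autoImplicit false

namespace Claimed.Agent.R257

open MeasureTheory Metric Set
open scoped ENNReal ContDiff InnerProductSpace Real ComplexConjugate

variable {n : ℕ}

theorem ifp_pair_pol (a b : ℂ) :
    a * conj b = (1 / 4 : ℂ) * ((((‖a + 1 * b‖ ^ 2 : ℝ) : ℂ) - ((‖a + (-1) * b‖ ^ 2 : ℝ) : ℂ))
      + (Complex.I * ((‖a + Complex.I * b‖ ^ 2 : ℝ) : ℂ) - Complex.I * ((‖a + (-Complex.I) * b‖ ^ 2 : ℝ) : ℂ))) := by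
  have e : ∀ z : ℂ, ((‖z‖ ^ 2 : ℝ) : ℂ) = z * conj z := by
    intro z
    rw [Complex.mul_conj, Complex.normSq_eq_norm_sq]
  rw [e, e, e, e]
  simp only [map_add, map_mul, map_neg, map_one, Complex.conj_I]
  linear_combination ((1 / 2 : ℂ) * a * conj b - (1 / 2 : ℂ) * b * conj a) * Complex.I_sq

theorem ifp_pair_lin {L : ℝ} (hL : 0 < L) {g h : E n → ℂ} (hg : MemLp g 2 volume) (hh : MemLp h 2 volume) (c : ℂ)
    (α : (Fin n → ℤ) × (Fin n → ℤ)) :
    ifpC L (fun ξ => g ξ + c * h ξ) α = ifpC L g α + c * ifpC L h α := by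
  unfold ifpC
  have hv : MemLp (fun ξ => conj (ifpV L α ξ)) 2 volume := (ifp_V_reg hL α).2.2.1.star
  have i1 : Integrable (fun ξ => g ξ * conj (ifpV L α ξ)) volume := hg.integrable_mul hv
  have i2 : Integrable (fun ξ => h ξ * conj (ifpV L α ξ)) volume := hh.integrable_mul hv
  rw [← integral_const_mul, ← integral_add i1 (i2.const_mul c)]
  refine integral_congr_ae (Filter.Eventually.of_forall fun ξ => ?_)
  simp only
  ring

theorem ifp_pair_one {L : ℝ} (hL : 0 < L) {g h : E n → ℂ} (hg : MemLp g 2 volume) (hh : MemLp h 2 volume) (c : ℂ) :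
    Integrable (fun ξ => ((‖g ξ + c * h ξ‖ ^ 2 : ℝ) : ℂ)) volume ∧
    HasSum (fun α : (Fin n → ℤ) × (Fin n → ℤ) => ((‖ifpC L g α + c * ifpC L h α‖ ^ 2 : ℝ) : ℂ))
      (∫ ξ, ((‖g ξ + c * h ξ‖ ^ 2 : ℝ) : ℂ)) := by
  have hu : MemLp (fun ξ => g ξ + c * h ξ) 2 volume := hg.add (hh.const_mul c)
  refine ⟨((memLp_two_iff_integrable_sq_norm hu.1).1 hu).ofReal, ?_⟩
  have key := ifp_parseval hL hu
  rw [integral_complex_ofReal, Complex.hasSum_ofReal]
  refine key.congr_fun fun α => ?_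
  rw [ifp_pair_lin hL hg hh]

/-- **L-IFP-POL** -/
theorem ifp_pair {L : ℝ} (hL : 0 < L) {g h : E n → ℂ} (hg : MemLp g 2 volume) (hh : MemLp h 2 volume) :
    HasSum (fun α : (Fin n → ℤ) × (Fin n → ℤ) => ifpC L g α * conj (ifpC L h α)) (∫ ξ, g ξ * conj (h ξ)) := by
  obtain ⟨i1, s1⟩ := ifp_pair_one hL hg hh 1
  obtain ⟨i2, s2⟩ := ifp_pair_one hL hg hh (-1)
  obtain ⟨i3, s3⟩ := ifp_pair_one hL hg hh Complex.I
  obtain ⟨i4, s4⟩ := ifp_pair_one hL hg hh (-Complex.I)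
  have key := (((s1.sub s2).add ((s3.mul_left Complex.I).sub (s4.mul_left Complex.I))).mul_left (1 / 4 : ℂ))
  have e : ∫ ξ, g ξ * conj (h ξ) = (1 / 4 : ℂ) * (((∫ ξ, ((‖g ξ + 1 * h ξ‖ ^ 2 : ℝ) : ℂ)) - ∫ ξ, ((‖g ξ + (-1) * h ξ‖ ^ 2 : ℝ) : ℂ))
      + (Complex.I * (∫ ξ, ((‖g ξ + Complex.I * h ξ‖ ^ 2 : ℝ) : ℂ)) - Complex.I * ∫ ξ, ((‖g ξ + (-Complex.I) * h ξ‖ ^ 2 : ℝ) : ℂ))) := by
    have j1 : Integrable (fun ξ => ((‖g ξ + 1 * h ξ‖ ^ 2 : ℝ) : ℂ) - ((‖g ξ + (-1) * h ξ‖ ^ 2 : ℝ) : ℂ)) volume := i1.sub i2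
    have j2 : Integrable (fun ξ => Complex.I * ((‖g ξ + Complex.I * h ξ‖ ^ 2 : ℝ) : ℂ)
        - Complex.I * ((‖g ξ + (-Complex.I) * h ξ‖ ^ 2 : ℝ) : ℂ)) volume := (i3.const_mul _).sub (i4.const_mul _)
    rw [← integral_sub i1 i2, ← integral_const_mul, ← integral_const_mul,
      ← integral_sub (i3.const_mul _) (i4.const_mul _), ← integral_add j1 j2, ← integral_const_mul]
    refine integral_congr_ae (Filter.Eventually.of_forall fun ξ => ?_)
    exact ifp_pair_pol _ _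
  rw [e]
  refine key.congr_fun fun α => ?_
  exact ifp_pair_pol _ _

end Claimed.Agent.R257
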