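import Claimed.Agent.R257.Infra.Pkt.Cube

/-!
# R257 / Infra / Pkt / Slot : LEAF L-IFP-SLOT: Parseval in one frequency slot.      (architect helper245)   ~200 l.

PLAN.  `V = ω_j = ifpOm L j`, `l = 2/L`.   Unfolding (`ifpV`, `iflG`, `ifpAmp`, `sub_zero`):  `ifpV L (j,m) ξ = (L/2)^{n/2} χ(L•(ξ-V)) e(-⟪π L m, ξ-V⟫)`, so `conj (ifpV L (j,m) ξ) = χ(L•(ξ-V)) · conj (ifpMode V l (-m) ξ)`
 (`l^(-n/2) = (L/2)^{n/2}`, `2π⟪-m, ξ-V⟫/l = -π L ⟪m, ξ-V⟫`, `conj (iflE s) = iflE (-s)`, `(2π)^{-n} L^{n/2} (2π)ⁿ 2^{-n/2} = (L/2)^{n/2}`: `Real.div_rpow`).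
 `χ(L•(ξ-V)) ≠ 0 ⟹ |L (ξ-V)_i| < 1` (`R255.pk_win1_supp`) `⟹ ξ ∈ ifpCube V l`: the integral over `E n` is the integral over the cube (`setIntegral_eq_integral_of_forall_compl_eq_zero`).
 `H ξ = g ξ χ(L•(ξ-V))` is in `L²` (`|χ| ≤ 1`: `R255.pk_win1_range`; `MemLp.mono`/`MemLp.restrict`; `χ` continuous: `R255.pk_win1_smooth`).   `ifp_cube_parseval`, reindex `m ↦ -m` (`Equiv.neg`, `Equiv.hasSum_iff`).   `χ² = iflWin` (`Finset.prod_pow`).
-/

set_option autoImplicit false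

namespace Claimed.Agent.R257

open MeasureTheory Metric Set
open scoped ENNReal ContDiff InnerProductSpace Real ComplexConjugate

variable {n : ℕ}

theorem ifp_slot_chi_cont : Continuous (ifpChi : E n → ℝ) := by
  unfold ifpChi
  exact continuous_finsetProd _ fun i _ =>
    R255.pk_win1_smooth.continuous.comp (EuclideanSpace.proj i : E n →L[ℝ] ℝ).continuous

theorem ifp_slot_chi_range (θ : E n) : 0 ≤ ifpChi θ ∧ ifpChi θ ≤ 1 := by
  unfold ifpChi
  exact ⟨Finset.prod_nonneg fun i _ => (R255.pk_win1_range _).1,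
    Finset.prod_le_one (fun i _ => (R255.pk_win1_range _).1) fun i _ => (R255.pk_win1_range _).2⟩

theorem ifp_slot_chi_sq (θ : E n) : ifpChi θ ^ 2 = iflWin θ := by
  unfold ifpChi iflWin
  rw [Finset.prod_pow]

theorem ifp_slot_chi_supp (θ : E n) (h : ifpChi θ ≠ 0) : ∀ i, |θ i| < 1 := by
  intro i
  unfold ifpChi at h
  rw [Finset.prod_ne_zero_iff] at h
  exact R255.pk_win1_supp _ (h i (Finset.mem_univ i))

theorem ifp_slot_V {L : ℝ} (hL : 0 < L) (j m : Fin n → ℤ) (ξ : E n) :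
    ifpV L (j, m) ξ = ((ifpChi (L • (ξ - ifpOm L j)) : ℝ) : ℂ) * ifpMode (ifpOm L j) (2 / L) (-m) ξ := by
  unfold ifpV iflG ifpAmp ifpMode
  simp only [sub_zero]
  have e1 : -⟪ifpY L m, ξ - ifpOm L j⟫_ℝ = 2 * π * ⟪iflLat (-m), ξ - ifpOm L j⟫_ℝ / (2 / L) := by
    have e2 : (iflLat (-m) : E n) = -iflLat m := by
      unfold iflLat
      ext i
      simp
    unfold ifpY
    rw [e2, inner_neg_left, inner_smul_left]
    simp only [conj_trivial]
    field_simp
  rw [e1]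
  have e3 : ((2 * π) ^ n)⁻¹ * L ^ ((n : ℝ) / 2) * ((2 * π) ^ n * 2 ^ (-(n : ℝ) / 2)) = (2 / L) ^ (-(n : ℝ) / 2) := by
    have hp : (2 * π) ^ n ≠ 0 := by positivity
    rw [Real.div_rpow (by norm_num) hL.le, neg_div, Real.rpow_neg hL.le, Real.rpow_neg (by norm_num)]
    field_simp
  rw [← e3]
  push_cast
  ring

theorem ifp_slot_cube {L : ℝ} (hL : 0 < L) (V ξ : E n) (h : ifpChi (L • (ξ - V)) ≠ 0) : ξ ∈ ifpCube V (2 / L) := by
  intro i
  have h1 := ifp_slot_chi_supp _ h i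
  have e : (L • (ξ - V)) i = L * (ξ i - V i) := by simp
  rw [e, abs_lt] at h1
  have e2 : 2 / L / 2 = 1 / L := by field_simp
  rw [e2]
  constructor
  · rw [neg_lt, lt_div_iff₀ hL]
    nlinarith [h1.1]
  · rw [le_div_iff₀ hL]
    nlinarith [h1.2]

/-- **L-IFP-SLOT** -/
theorem ifp_slot {L : ℝ} (hL : 0 < L) {g : E n → ℂ} (hg : MemLp g 2 volume) (j : Fin n → ℤ) :
    HasSum (fun m : Fin n → ℤ => ‖ifpC L g (j, m)‖ ^ 2) (∫ ξ, iflWin (L • (ξ - ifpOm L j)) * ‖g ξ‖ ^ 2) := by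
  set V : E n := ifpOm L j with hV
  have hl : 0 < 2 / L := by positivity
  have hχc : Continuous fun ξ : E n => ((ifpChi (L • (ξ - V)) : ℝ) : ℂ) :=
    Complex.continuous_ofReal.comp (ifp_slot_chi_cont.comp (by fun_prop))
  have hH : MemLp (fun ξ => g ξ * ((ifpChi (L • (ξ - V)) : ℝ) : ℂ)) 2 volume := by
    refine MemLp.of_le hg (hg.1.mul hχc.aestronglyMeasurable) (Filter.Eventually.of_forall fun ξ => ?_)
    rw [norm_mul, Complex.norm_real, Real.norm_eq_abs, abs_of_nonneg (ifp_slot_chi_range _).1]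
    exact mul_le_of_le_one_right (norm_nonneg _) (ifp_slot_chi_range _).2
  have key := ifp_cube_parseval V hl _ (hH.restrict _)
  rw [← (Equiv.neg (Fin n → ℤ)).hasSum_iff] at key
  have e_tot : ∫ v in ifpCube V (2 / L), ‖g v * ((ifpChi (L • (v - V)) : ℝ) : ℂ)‖ ^ 2
      = ∫ ξ, iflWin (L • (ξ - V)) * ‖g ξ‖ ^ 2 := by
    rw [setIntegral_eq_integral_of_forall_compl_eq_zero]
    · refine integral_congr_ae (Filter.Eventually.of_forall fun ξ => ?_)
      simp only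
      rw [norm_mul, Complex.norm_real, Real.norm_eq_abs, mul_pow, sq_abs, ifp_slot_chi_sq, mul_comm]
    · intro ξ hξ
      have : ifpChi (L • (ξ - V)) = 0 := by
        by_contra hne
        exact hξ (ifp_slot_cube hL V ξ hne)
      rw [this]
      simp
  rw [e_tot] at key
  refine key.congr_fun fun m => ?_
  simp only [Function.comp, Equiv.neg_apply]
  congr 2
  unfold ifpC
  rw [setIntegral_eq_integral_of_forall_compl_eq_zero]
  · refine integral_congr_ae (Filter.Eventually.of_forall fun ξ => ?_)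
    simp only
    rw [ifp_slot_V hL, map_mul, Complex.conj_ofReal, mul_assoc]
  · intro ξ hξ
    have : ifpChi (L • (ξ - V)) = 0 := by
      by_contra hne
      exact hξ (ifp_slot_cube hL V ξ hne)
    rw [this]
    simp

end Claimed.Agent.R257
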